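import Mathlib
import Vale.Agent.Lib.P047.Defs

namespace Vale.Agent.P047

/-- `B_d = E |X_1 + ... + X_d|` for `X` uniform on the `d`-dimensional cube (bits encode signs
through `sgn`). -/
noncomputable def Bd (d : ℕ) : ℝ :=
  (∑ x : Fin d → Bool, |∑ i : Fin d, sgn (x i)|) / 2 ^ d

end Vale.Agent.P047
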