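import Mathlib
import Vale.Agent.Lib.P047N.Defs

namespace Vale.Agent.P047

/-- The sum of the signs of a point of the cube. -/
noncomputable def Ssum {n : ℕ} (x : Fin n → Bool) : ℝ := ∑ i : Fin n, sgn (x i)

/-- The product of the signs of a point of the cube (the full parity character). -/
noncomputable def Chi {n : ℕ} (x : Fin n → Bool) : ℝ := ∏ i : Fin n, sgn (x i)

theorem Bd_eq (d : ℕ) : Bd d = (∑ x : Fin d → Bool, |Ssum x|) / 2 ^ d := rfl

end Vale.Agent.P047
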