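import Mathlib
import Vale.Agent.Lib.P047N.Basic

namespace Vale.Agent.P047

/-- U3a. Hint: unfold levelOne fhat Ssum; Finset.prod_singleton, Finset.sum_div, Finset.sum_comm,
Finset.mul_sum. -/
theorem levelOne_eq {N : ℕ} (f : (Fin N → Bool) → Bool) :
    levelOne f = (∑ x : Fin N → Bool, sgn (f x) * Ssum x) / 2 ^ N := by
  unfold levelOne fhat Ssum
  simp only [Finset.prod_singleton]
  rw [← Finset.sum_div, Finset.sum_comm]
  congr 1
  refine Finset.sum_congr rfl fun x _ => ?_
  rw [Finset.mul_sum]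

/-- U3b. -/
theorem fhat_univ_eq {N : ℕ} (f : (Fin N → Bool) → Bool) :
    fhat f Finset.univ = (∑ x : Fin N → Bool, sgn (f x) * Chi x) / 2 ^ N := by
  rfl

/-- U3c. Hint: prod over univ.erase j = Chi x * sgn (x j), from Finset.mul_prod_erase and
sgn b * sgn b = 1. -/
theorem sum_fhat_erase_eq {N : ℕ} (f : (Fin N → Bool) → Bool) :
    ∑ j : Fin N, fhat f (Finset.univ.erase j)
      = (∑ x : Fin N → Bool, sgn (f x) * (Chi x * Ssum x)) / 2 ^ N := by
  unfold fhat
  rw [← Finset.sum_div, Finset.sum_comm]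
  congr 1
  refine Finset.sum_congr rfl fun x _ => ?_
  rw [← Finset.mul_sum]
  congr 1
  unfold Ssum
  rw [Finset.mul_sum]
  refine Finset.sum_congr rfl fun j _ => ?_
  have h1 : sgn (x j) * ∏ i ∈ Finset.univ.erase j, sgn (x i) = Chi x :=
    Finset.mul_prod_erase Finset.univ (fun i => sgn (x i)) (Finset.mem_univ j)
  have h2 : sgn (x j) * sgn (x j) = 1 := by
    unfold sgn
    split_ifs <;> norm_num
  rw [← h1]
  generalize (∏ i ∈ Finset.univ.erase j, sgn (x i)) = P
  calc P = (sgn (x j) * sgn (x j)) * P := by rw [h2, one_mul]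
    _ = sgn (x j) * P * sgn (x j) := by ring

end Vale.Agent.P047
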