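import Mathlib
import Vale.Agent.Lib.P047N.Basic

namespace Vale.Agent.P047

/-- U1. With `k` the number of `false` bits: `S = n - 2k`, `chi = (-1)^k`.
Hint: k = card (univ.filter (fun i => x i = false)); or induction on n with Fin.cons
(Fin.sum_univ_succ, Fin.prod_univ_succ, Fin.consInduction / Fin.cons_self_tail). -/
theorem exists_count {n : ℕ} (x : Fin n → Bool) :
    ∃ k : ℕ, k ≤ n ∧ Ssum x = (n : ℝ) - 2 * (k : ℝ) ∧ Chi x = (-1 : ℝ) ^ k := by
  induction n with
  | zero => exact ⟨0, le_refl _, by simp [Ssum], by simp [Chi]⟩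
  | succ n ih =>
    obtain ⟨k, hk, hS, hC⟩ := ih (fun i => x i.succ)
    have hS' : Ssum x = sgn (x 0) + Ssum (fun i => x i.succ) := by
      unfold Ssum; rw [Fin.sum_univ_succ]
    have hC' : Chi x = sgn (x 0) * Chi (fun i => x i.succ) := by
      unfold Chi; rw [Fin.prod_univ_succ]
    have e1 : sgn true = 1 := by simp [sgn]
    have e2 : sgn false = -1 := by simp [sgn]
    cases hx : x 0
    · refine ⟨k + 1, by omega, ?_, ?_⟩
      · rw [hS', hS, hx, e2]; push_cast; ring
      · rw [hC', hC, hx, e2, pow_succ]; ring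
    · refine ⟨k, by omega, ?_, ?_⟩
      · rw [hS', hS, hx, e1]; push_cast; ring
      · rw [hC', hC, hx, e1]; ring

end Vale.Agent.P047
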