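import Mathlib
import Vale.Agent.Lib.P047N.Basic

namespace Vale.Agent.P047

/-- U2a. Splitting off the first bit. Hint: Fin.consEquiv / Fin.insertNthEquiv / Fin.consPiProd,
Fintype.sum_equiv, Fintype.sum_prod_type, Fintype.sum_bool, Finset.sum_add_distrib. -/
theorem sum_split {n : ℕ} (F : (Fin (n + 1) → Bool) → ℝ) :
    ∑ x : Fin (n + 1) → Bool, F x
      = ∑ y : Fin n → Bool, (F (Fin.cons true y) + F (Fin.cons false y)) := by
  rw [← (Fin.consEquiv (fun _ : Fin (n + 1) => Bool)).sum_comp, Fintype.sum_prod_type,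
    Fintype.sum_bool, ← Finset.sum_add_distrib]
  rfl

/-- U2b. -/
theorem Ssum_cons {n : ℕ} (b : Bool) (y : Fin n → Bool) :
    Ssum (Fin.cons b y : Fin (n + 1) → Bool) = sgn b + Ssum y := by
  unfold Ssum
  rw [Fin.sum_univ_succ]
  simp

/-- U2c. -/
theorem Chi_cons {n : ℕ} (b : Bool) (y : Fin n → Bool) :
    Chi (Fin.cons b y : Fin (n + 1) → Bool) = sgn b * Chi y := by
  unfold Chi
  rw [Fin.prod_univ_succ]
  simp

end Vale.Agent.P047
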