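import Mathlib
import Vale.Agent.Lib.P047N.Count
import Vale.Agent.Lib.P047N.Split

namespace Vale.Agent.P047

/-- U5. n = 2m, c = (-1)^m. Hint: sum_split, Ssum_cons, Chi_cons. For each y put u = Ssum y = 2m - 2k,
eta = c * Chi y = (-1)^(m+k) in {1,-1}. The two terms are |u + 1 - eta| + |u - 1 + eta|.
If eta = 1 this is 2|u|. If eta = -1 then k != m, so |u| >= 2 and |u+2| + |u-2| = 2|u|. -/
theorem sum_abs_sub_chi (m : ℕ) :
    ∑ x : Fin (2 * m + 1) → Bool, |Ssum x - (-1 : ℝ) ^ m * Chi x|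
      = 2 * ∑ y : Fin (2 * m) → Bool, |Ssum y| := by
  rw [sum_split, Finset.mul_sum]
  refine Finset.sum_congr rfl (fun y _ => ?_)
  obtain ⟨k, hk, hS, hC⟩ := exists_count y
  rw [Ssum_cons, Ssum_cons, Chi_cons, Chi_cons]
  have hs1 : sgn true = 1 := by simp [sgn]
  have hs2 : sgn false = -1 := by simp [sgn]
  rw [hs1, hs2]
  generalize Ssum y = u at hS ⊢
  have hη : (-1 : ℝ) ^ m * Chi y = (-1) ^ (m + k) := by rw [hC, pow_add]
  have e1 : 1 + u - (-1 : ℝ) ^ m * (1 * Chi y) = 1 + u - (-1) ^ (m + k) := by rw [one_mul, hη]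
  have e2 : -1 + u - (-1 : ℝ) ^ m * (-1 * Chi y) = -1 + u + (-1) ^ (m + k) := by
    rw [← hη]; ring
  rw [e1, e2]
  rcases neg_one_pow_eq_or ℝ (m + k) with h | h
  · rw [h]
    rw [show (1 + u - 1 : ℝ) = u by ring, show (-1 + u + 1 : ℝ) = u by ring]; ring
  · rw [h]
    have hkm : k ≠ m := by
      rintro rfl
      rw [← two_mul, pow_mul] at h
      norm_num at h
    have hu' : u = 2 * ((m : ℝ) - k) := by rw [hS]; push_cast; ring
    rcases lt_or_gt_of_ne hkm with hlt | hgt
    · have : (k : ℝ) + 1 ≤ m := by exact_mod_cast hlt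
      have hu2 : 2 ≤ u := by rw [hu']; linarith
      rw [abs_of_nonneg (by linarith), abs_of_nonneg (by linarith), abs_of_nonneg (by linarith)]
      ring
    · have : (m : ℝ) + 1 ≤ k := by exact_mod_cast hgt
      have hu2 : u ≤ -2 := by rw [hu']; linarith
      rw [abs_of_nonpos (by linarith), abs_of_nonpos (by linarith), abs_of_nonpos (by linarith)]
      ring

end Vale.Agent.P047
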