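import Mathlib
import Vale.Agent.Lib.P047N.Count
import Vale.Agent.Lib.P047N.Split

namespace Vale.Agent.P047

/-- U6. n = 2m, eps = -(-1)^m. Hint: sum_split twice, Ssum_cons, Chi_cons. For each y put
u = Ssum y = 2m - 2k, eta = (-1)^m * Chi y = (-1)^(m+k). The four terms add up to
(|u+2| + |u-2|) (1 - eta) + 2 |u| (1 + eta). If k != m then |u| >= 2 and this is 4|u|.
If k = m then u = 0, eta = 1 and this is 0 = 4|u|. -/
theorem sum_abs_mul_chi (m : ℕ) :
    ∑ x : Fin (2 * m + 1 + 1) → Bool, |Ssum x| * (1 - (-1 : ℝ) ^ m * Chi x)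
      = 4 * ∑ y : Fin (2 * m) → Bool, |Ssum y| := by
  rw [sum_split, sum_split, Finset.mul_sum]
  refine Finset.sum_congr rfl (fun y _ => ?_)
  obtain ⟨k, hk, hS, hC⟩ := exists_count y
  simp only [Ssum_cons, Chi_cons]
  have hs1 : sgn true = 1 := by simp [sgn]
  have hs2 : sgn false = -1 := by simp [sgn]
  rw [hs1, hs2]
  generalize Ssum y = u at hS ⊢
  have hη : (-1 : ℝ) ^ m * Chi y = (-1) ^ (m + k) := by rw [hC, pow_add]
  have a1 : (-1 : ℝ) ^ m * (1 * (1 * Chi y)) = (-1) ^ (m + k) := by rw [one_mul, one_mul, hη]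
  have a2 : (-1 : ℝ) ^ m * (1 * (-1 * Chi y)) = -(-1) ^ (m + k) := by rw [← hη]; ring
  have a3 : (-1 : ℝ) ^ m * (-1 * (1 * Chi y)) = -(-1) ^ (m + k) := by rw [← hη]; ring
  have a4 : (-1 : ℝ) ^ m * (-1 * (-1 * Chi y)) = (-1) ^ (m + k) := by rw [← hη]; ring
  rw [a1, a2, a3, a4]
  rw [show (1 + (1 + u) : ℝ) = u + 2 by ring, show (1 + (-1 + u) : ℝ) = u by ring,
    show (-1 + (1 + u) : ℝ) = u by ring, show (-1 + (-1 + u) : ℝ) = u - 2 by ring]
  rcases neg_one_pow_eq_or ℝ (m + k) with h | h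
  · rw [h]; ring
  · rw [h]
    have hkm : k ≠ m := by
      rintro rfl
      rw [← two_mul, pow_mul] at h
      norm_num at h
    have hu' : u = 2 * ((m : ℝ) - k) := by rw [hS]; push_cast; ring
    rcases lt_or_gt_of_ne hkm with hlt | hgt
    · have : (k : ℝ) + 1 ≤ m := by exact_mod_cast hlt
      have hu2 : 2 ≤ u := by rw [hu']; linarith
      rw [abs_of_nonneg (show (0 : ℝ) ≤ u + 2 by linarith),
        abs_of_nonneg (show (0 : ℝ) ≤ u - 2 by linarith), abs_of_nonneg (show (0 : ℝ) ≤ u by linarith)]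
      ring
    · have : (m : ℝ) + 1 ≤ k := by exact_mod_cast hgt
      have hu2 : u ≤ -2 := by rw [hu']; linarith
      rw [abs_of_nonpos (show u + 2 ≤ (0 : ℝ) by linarith),
        abs_of_nonpos (show u - 2 ≤ (0 : ℝ) by linarith), abs_of_nonpos (show u ≤ (0 : ℝ) by linarith)]
      ring

end Vale.Agent.P047
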