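import Mathlib
import Vale.Agent.Lib.P047N.Fourier
import Vale.Agent.Lib.P047N.Rec1
import Vale.Agent.Lib.P047N.Rec2

namespace Vale.Agent.P047

theorem sgn_mul_le_abs (b : Bool) (u : ℝ) : sgn b * u ≤ |u| := by
  cases b
  · simp only [sgn]
    have := neg_abs_le u
    have h2 := neg_le_abs u
    simpa using h2
  · simp only [sgn]
    simpa using le_abs_self u

/-- U8a. Hint: levelOne_eq, sgn b * u <= |u|, Finset.sum_le_sum, div_le_div_of_nonneg_right. -/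
theorem levelOne_le_Bd {N : ℕ} (f : (Fin N → Bool) → Bool) : levelOne f ≤ Bd N := by
  rw [levelOne_eq, Bd_eq]
  apply div_le_div_of_nonneg_right _ (by positivity)
  exact Finset.sum_le_sum (fun x _ => sgn_mul_le_abs _ _)

/-- U8b. Hint: fhat f univ = 0 (card univ = 2m+1 > 2m), so by levelOne_eq, fhat_univ_eq
levelOne f = (sum sgn (f x) * (Ssum x - c * Chi x)) / 2^(2m+1) <= (sum |Ssum x - c Chi x|) / 2^(2m+1)
= Bd (2m) by sum_abs_sub_chi. -/
theorem levelOne_le_of_deg_one (m : ℕ) (f : (Fin (2 * m + 1) → Bool) → Bool)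
    (h : DegLE f (2 * m)) : levelOne f ≤ Bd (2 * m) := by
  have h0 : fhat f Finset.univ = 0 := h _ (by simp)
  rw [fhat_univ_eq] at h0
  have hpow : (0 : ℝ) < 2 ^ (2 * m + 1) := by positivity
  have h1 : ∑ x : Fin (2 * m + 1) → Bool, sgn (f x) * Chi x = 0 := by
    rcases div_eq_zero_iff.mp h0 with h | h
    · exact h
    · exact absurd h (ne_of_gt hpow)
  have h2 : ∑ x : Fin (2 * m + 1) → Bool, sgn (f x) * Ssum x
      = ∑ x : Fin (2 * m + 1) → Bool, sgn (f x) * (Ssum x - (-1 : ℝ) ^ m * Chi x) := by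
    have : ∑ x : Fin (2 * m + 1) → Bool, sgn (f x) * (Ssum x - (-1 : ℝ) ^ m * Chi x)
        = ∑ x : Fin (2 * m + 1) → Bool, sgn (f x) * Ssum x
          - (-1 : ℝ) ^ m * ∑ x : Fin (2 * m + 1) → Bool, sgn (f x) * Chi x := by
      rw [Finset.mul_sum, ← Finset.sum_sub_distrib]
      exact Finset.sum_congr rfl (fun x _ => by ring)
    rw [this, h1]; ring
  rw [levelOne_eq, h2, Bd_eq]
  have h3 : ∑ x : Fin (2 * m + 1) → Bool, sgn (f x) * (Ssum x - (-1 : ℝ) ^ m * Chi x)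
      ≤ 2 * ∑ y : Fin (2 * m) → Bool, |Ssum y| := by
    rw [← sum_abs_sub_chi]
    exact Finset.sum_le_sum (fun x _ => sgn_mul_le_abs _ _)
  rw [div_le_div_iff₀ hpow (by positivity)]
  calc (∑ x : Fin (2 * m + 1) → Bool, sgn (f x) * (Ssum x - (-1 : ℝ) ^ m * Chi x)) * 2 ^ (2 * m)
      ≤ (2 * ∑ y : Fin (2 * m) → Bool, |Ssum y|) * 2 ^ (2 * m) :=
        mul_le_mul_of_nonneg_right h3 (by positivity)
    _ = (∑ y : Fin (2 * m) → Bool, |Ssum y|) * 2 ^ (2 * m + 1) := by ring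

theorem one_sub_chi_nonneg {n : ℕ} (m : ℕ) (x : Fin n → Bool) :
    0 ≤ 1 - (-1 : ℝ) ^ m * Chi x := by
  obtain ⟨k, _, _, hk⟩ := exists_count x
  rw [hk, ← pow_add]
  rcases neg_one_pow_eq_or ℝ (m + k) with h | h <;> rw [h] <;> norm_num

/-- U8c. Hint: every fhat f (univ.erase j) = 0 (card = 2m+1 > 2m), so by sum_fhat_erase_eq
sum sgn (f x) * (Chi x * Ssum x) = 0 and levelOne f = (sum sgn (f x) * (Ssum x * (1 - c * Chi x))) / 2^(2m+2)
<= (sum |Ssum x| * (1 - c * Chi x)) / 2^(2m+2) because 1 - c * Chi x >= 0 (|c * Chi x| = 1, use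
exists_count), = Bd (2m) by sum_abs_mul_chi. -/
theorem levelOne_le_of_deg_two (m : ℕ) (f : (Fin (2 * m + 1 + 1) → Bool) → Bool)
    (h : DegLE f (2 * m)) : levelOne f ≤ Bd (2 * m) := by
  have h0 : ∑ j : Fin (2 * m + 1 + 1), fhat f (Finset.univ.erase j) = 0 := by
    apply Finset.sum_eq_zero
    intro j _
    apply h
    rw [Finset.card_erase_of_mem (Finset.mem_univ j)]
    simp
  rw [sum_fhat_erase_eq] at h0
  have hpow : (0 : ℝ) < 2 ^ (2 * m + 1 + 1) := by positivity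
  have h1 : ∑ x : Fin (2 * m + 1 + 1) → Bool, sgn (f x) * (Chi x * Ssum x) = 0 := by
    rcases div_eq_zero_iff.mp h0 with h | h
    · exact h
    · exact absurd h (ne_of_gt hpow)
  have h2 : ∑ x : Fin (2 * m + 1 + 1) → Bool, sgn (f x) * Ssum x
      = ∑ x : Fin (2 * m + 1 + 1) → Bool,
          (sgn (f x) * Ssum x) * (1 - (-1 : ℝ) ^ m * Chi x) := by
    have : ∑ x : Fin (2 * m + 1 + 1) → Bool, (sgn (f x) * Ssum x) * (1 - (-1 : ℝ) ^ m * Chi x)
        = ∑ x : Fin (2 * m + 1 + 1) → Bool, sgn (f x) * Ssum x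
          - (-1 : ℝ) ^ m * ∑ x : Fin (2 * m + 1 + 1) → Bool, sgn (f x) * (Chi x * Ssum x) := by
      rw [Finset.mul_sum, ← Finset.sum_sub_distrib]
      exact Finset.sum_congr rfl (fun x _ => by ring)
    rw [this, h1]; ring
  rw [levelOne_eq, h2, Bd_eq]
  have h3 : ∑ x : Fin (2 * m + 1 + 1) → Bool, (sgn (f x) * Ssum x) * (1 - (-1 : ℝ) ^ m * Chi x)
      ≤ 4 * ∑ y : Fin (2 * m) → Bool, |Ssum y| := by
    rw [← sum_abs_mul_chi]
    exact Finset.sum_le_sum (fun x _ =>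
      mul_le_mul_of_nonneg_right (sgn_mul_le_abs _ _) (one_sub_chi_nonneg m x))
  rw [div_le_div_iff₀ hpow (by positivity)]
  calc (∑ x : Fin (2 * m + 1 + 1) → Bool,
          (sgn (f x) * Ssum x) * (1 - (-1 : ℝ) ^ m * Chi x)) * 2 ^ (2 * m)
      ≤ (4 * ∑ y : Fin (2 * m) → Bool, |Ssum y|) * 2 ^ (2 * m) :=
        mul_le_mul_of_nonneg_right h3 (by positivity)
    _ = (∑ y : Fin (2 * m) → Bool, |Ssum y|) * 2 ^ (2 * m + 1 + 1) := by ring

end Vale.Agent.P047
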