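import Mathlib
import Vale.Agent.Lib.P047N.Count
import Vale.Agent.Lib.P047N.Split

namespace Vale.Agent.P047

/-- U4a. Hint: sum_split, Ssum_cons, |1+u| + |-1+u| >= 2|u|, pow_succ. -/
theorem Bd_le_succ (n : ℕ) : Bd n ≤ Bd (n + 1) := by
  rw [Bd_eq, Bd_eq, sum_split]
  simp only [Ssum_cons]
  have e1 : sgn true = 1 := by simp [sgn]
  have e2 : sgn false = -1 := by simp [sgn]
  have h1 : ∀ y : Fin n → Bool,
      2 * |Ssum y| ≤ |sgn true + Ssum y| + |sgn false + Ssum y| := by
    intro y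
    rw [e1, e2]
    have h3 := abs_add_le (1 + Ssum y) (-1 + Ssum y)
    have h2 : (1 + Ssum y) + (-1 + Ssum y) = 2 * Ssum y := by ring
    rw [h2, abs_mul, abs_two] at h3
    exact h3
  have h2 : 2 * ∑ y : Fin n → Bool, |Ssum y|
      ≤ ∑ y : Fin n → Bool, (|sgn true + Ssum y| + |sgn false + Ssum y|) := by
    rw [Finset.mul_sum]
    exact Finset.sum_le_sum fun y _ => h1 y
  have h4 : (∑ y : Fin n → Bool, |Ssum y|) / 2 ^ n
      = (2 * ∑ y : Fin n → Bool, |Ssum y|) / 2 ^ (n + 1) := by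
    rw [pow_succ]
    field_simp
  rw [h4]
  exact div_le_div_of_nonneg_right h2 (by positivity)

/-- U4b. Hint: for n odd, u = Ssum y = n - 2k is an odd integer, so 1 <= |u| and
|1+u| + |-1+u| = 2|u|. -/
theorem Bd_succ_of_odd (n : ℕ) (hn : Odd n) : Bd (n + 1) = Bd n := by
  rw [Bd_eq, Bd_eq, sum_split]
  simp only [Ssum_cons]
  have e1 : sgn true = 1 := by simp [sgn]
  have e2 : sgn false = -1 := by simp [sgn]
  obtain ⟨m, hm⟩ := hn
  have h1 : ∀ y : Fin n → Bool,
      |sgn true + Ssum y| + |sgn false + Ssum y| = 2 * |Ssum y| := by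
    intro y
    obtain ⟨k, hk, hS, -⟩ := exists_count y
    rw [e1, e2]
    have hnm : (n : ℝ) = 2 * (m : ℝ) + 1 := by rw [hm]; push_cast; ring
    rcases le_or_gt k m with hkm | hkm
    · have h5 : (1 : ℝ) ≤ Ssum y := by
        have h6 : (k : ℝ) ≤ m := by exact_mod_cast hkm
        rw [hS, hnm]; linarith
      rw [abs_of_nonneg (by linarith), abs_of_nonneg (by linarith), abs_of_nonneg (by linarith)]
      ring
    · have h5 : Ssum y ≤ -1 := by
        have h6 : (m : ℝ) + 1 ≤ k := by exact_mod_cast hkm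
        rw [hS, hnm]; linarith
      rw [abs_of_nonpos (by linarith), abs_of_nonpos (by linarith), abs_of_nonpos (by linarith)]
      ring
  simp only [h1]
  rw [← Finset.mul_sum, pow_succ]
  field_simp

end Vale.Agent.P047
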