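import Mathlib
import Vale.Agent.Lib.P047N.Split

namespace Vale.Agent.P047

/-- U7a. Hint: induction with sum_split, Ssum_cons: (1+u)^2 + (-1+u)^2 = 2u^2 + 2;
card of the cube = 2^n. -/
theorem sum_Ssum_sq (n : ℕ) : ∑ x : Fin n → Bool, (Ssum x) ^ 2 = (n : ℝ) * 2 ^ n := by
  induction n with
  | zero => simp [Ssum]
  | succ n ih =>
    rw [sum_split]
    simp only [Ssum_cons]
    have e1 : sgn true = 1 := by simp [sgn]
    have e2 : sgn false = -1 := by simp [sgn]
    have h1 : ∀ y : Fin n → Bool,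
        (sgn true + Ssum y) ^ 2 + (sgn false + Ssum y) ^ 2 = 2 * (Ssum y) ^ 2 + 2 := by
      intro y; rw [e1, e2]; ring
    simp only [h1]
    rw [Finset.sum_add_distrib, ← Finset.mul_sum, ih]
    simp only [Finset.sum_const, Finset.card_univ, Fintype.card_pi, Fintype.card_bool,
      Finset.prod_const, Fintype.card_fin, nsmul_eq_mul]
    push_cast
    ring

/-- U7b. Hint: Cauchy-Schwarz (Finset.sum_mul_sq_le_sq_mul_sq or inner_mul_le_norm_mul_norm or
sq_sum_le_card_mul_sum_sq): (sum |S|)^2 <= 2^n * sum S^2 = n * 4^n; Real.le_sqrt / abs_le_sqrt. -/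
theorem Bd_le_sqrt (n : ℕ) : Bd n ≤ Real.sqrt n := by
  refine le_trans (le_abs_self _) (Real.abs_le_sqrt ?_)
  rw [Bd_eq, div_pow]
  have h1 := sq_sum_le_card_mul_sum_sq (s := (Finset.univ : Finset (Fin n → Bool)))
    (f := fun x => |Ssum x|)
  simp only [sq_abs] at h1
  rw [sum_Ssum_sq] at h1
  simp only [Finset.card_univ, Fintype.card_pi, Fintype.card_bool,
      Finset.prod_const, Fintype.card_fin] at h1
  push_cast at h1
  rw [div_le_iff₀ (by positivity)]
  calc (∑ x : Fin n → Bool, |Ssum x|) ^ 2 ≤ 2 ^ n * ((n : ℝ) * 2 ^ n) := h1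
    _ = (n : ℝ) * (2 ^ n) ^ 2 := by ring

end Vale.Agent.P047
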