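import Mathlib
import Vale.Agent.Lib.P047N.Bounds
import Vale.Agent.Lib.P047N.RecOdd
import Vale.Agent.Lib.P047N.Sqrt

namespace Vale.Agent.P047

theorem Bd_mono : Monotone Bd := monotone_nat_of_le_succ Bd_le_succ

theorem DegLE_mono {N : ℕ} {f : (Fin N → Bool) → Bool} {d e : ℕ} (h : DegLE f d) (hde : d ≤ e) :
    DegLE f e := fun S hS => h S (lt_of_le_of_lt hde hS)

/-- O'Donnell's bound holds whenever the number of variables is at most `d + 2`. -/
theorem levelOne_le_Bd_of_near {N d : ℕ} (f : (Fin N → Bool) → Bool) (h : DegLE f d)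
    (hN : N ≤ d + 2) : levelOne f ≤ Bd d := by
  rcases Nat.lt_or_ge d N with hlt | hge
  · rcases Nat.even_or_odd' d with ⟨m, hm | hm⟩
    · -- d = 2m
      have hcase : N = 2 * m + 1 ∨ N = 2 * m + 1 + 1 := by omega
      subst hm
      rcases hcase with rfl | rfl
      · exact levelOne_le_of_deg_one m f h
      · exact levelOne_le_of_deg_two m f h
    · -- d = 2m+1
      have hodd : Odd d := ⟨m, hm⟩
      have hcase : N = d + 1 ∨ N = 2 * (m + 1) + 1 := by omega
      rcases hcase with rfl | rfl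
      · exact (levelOne_le_Bd f).trans (le_of_eq (Bd_succ_of_odd d hodd))
      · have h' : DegLE f (2 * (m + 1)) := DegLE_mono h (by omega)
        have h1 := levelOne_le_of_deg_one (m + 1) f h'
        have h2 : Bd (2 * (m + 1)) = Bd d := by
          have : 2 * (m + 1) = d + 1 := by omega
          rw [this]
          exact Bd_succ_of_odd d hodd
        exact h1.trans (le_of_eq h2)
  · exact (levelOne_le_Bd f).trans (Bd_mono hge)

theorem levelOne_le_sqrt_of_near {N d : ℕ} (f : (Fin N → Bool) → Bool) (h : DegLE f d)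
    (hN : N ≤ d + 2) : levelOne f ≤ Real.sqrt d :=
  (levelOne_le_Bd_of_near f h hN).trans (Bd_le_sqrt d)

/-- For odd `d` one more variable is allowed, because `B_{d+1} = B_d`. -/
theorem levelOne_le_Bd_of_near_odd {N d : ℕ} (f : (Fin N → Bool) → Bool) (h : DegLE f d)
    (hd : Odd d) (hN : N ≤ d + 3) : levelOne f ≤ Bd d :=
  (levelOne_le_Bd_of_near f (DegLE_mono h (Nat.le_succ d)) (by omega)).trans
    (le_of_eq (Bd_succ_of_odd d hd))

theorem levelOne_le_Bd_of_near' {N d : ℕ} (f : (Fin N → Bool) → Bool) (h : DegLE f d)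
    (hN : N ≤ d + 2 ∨ (Odd d ∧ N ≤ d + 3)) : levelOne f ≤ Bd d := by
  rcases hN with hN | ⟨hd, hN⟩
  · exact levelOne_le_Bd_of_near f h hN
  · exact levelOne_le_Bd_of_near_odd f h hd hN

end Vale.Agent.P047
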